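import Vale.Agent.P017.R2.H985.Defs2

/-!
# P017, module M7d: `StmtCount` from `StmtEq`, `StmtMain`, `StmtGood`
-/

open Finset

namespace Vale.Agent.P017.R2.H706

open Vale.Agent.P017.R2.H985

/-- logarithmic weight of the primes of `(N, 2N]` in the class `r` with pattern `φ` -/
noncomputable def A (m N r : ℕ) (φ : Pat m) : ℝ :=
  ∑ p ∈ (Pr N r).filter (fun p => sym m p = φ), Real.log p

theorem A_nonneg (m N r : ℕ) (φ : Pat m) : 0 ≤ A m N r φ :=
  Finset.sum_nonneg fun p _ => Real.log_natCast_nonneg p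

theorem le_A (hEq : StmtEq) {m N r : ℕ} (hm : Squarefree m) (hodd : Odd m) (hN : m ≤ N)
    (hmain : (N : ℝ) / 20 ≤ Theta N r 1) (hexc : ¬ Exc N r m) (φ : Pat m) :
    (N : ℝ) / (40 * Fintype.card (Pat m)) ≤ A m N r φ := by
  have h := hEq m N r hm hodd hN φ
  have hset : (Ioc N (2 * N)).filter (fun p => p.Prime ∧ p % 60 = r ∧ sym m p = φ) =
      (Pr N r).filter (fun p => sym m p = φ) := by
    ext p
    simp only [Pr, mem_filter, and_assoc]
  rw [hset] at h
  have hE : 2 * ∑ c ∈ m.divisors.erase 1, |Theta N r c| ≤ Theta N r 1 := not_lt.mp hexc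
  have hcard : (0 : ℝ) < Fintype.card (Pat m) := by
    exact_mod_cast Fintype.card_pos
  rw [div_le_iff₀ (by positivity)]
  have : (N : ℝ) / 40 ≤ Fintype.card (Pat m) * A m N r φ := by
    refine le_trans ?_ h
    linarith
  linarith

/-- the weighted count, grouped by patterns -/
theorem group (m s : ℕ) (N : Fin s → ℕ) (N' r' : ℕ) (G : (Fin s → Pat m) → Pat m → Prop)
    [∀ φ φ', Decidable (G φ φ')] :
    ∑ p ∈ Fintype.piFinset (fun i => Pr (N i) 1),
      ∑ p' ∈ (Pr N' r').filter (fun p' => G (fun i => sym m (p i)) (sym m p')),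
        (∏ i, Real.log (p i)) * Real.log p' =
    ∑ φ : Fin s → Pat m, ∑ φ' : Pat m,
      if G φ φ' then (∏ i, A m (N i) 1 (φ i)) * A m N' r' φ' else 0 := by
  rw [← Finset.sum_fiberwise _ (fun p : Fin s → ℕ => fun i => sym m (p i))]
  refine Finset.sum_congr rfl fun φ _ => ?_
  have hset : (Fintype.piFinset (fun i => Pr (N i) 1)).filter
      (fun p : Fin s → ℕ => (fun i => sym m (p i)) = φ) =
      Fintype.piFinset (fun i => (Pr (N i) 1).filter (fun q => sym m q = φ i)) := by
    ext p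
    simp only [mem_filter, Fintype.mem_piFinset, funext_iff (f := fun i => sym m (p i))]
    exact forall_and.symm
  rw [hset]
  have h1 : ∀ p ∈ Fintype.piFinset (fun i => (Pr (N i) 1).filter (fun q => sym m q = φ i)),
      ∑ p' ∈ (Pr N' r').filter (fun p' => G (fun i => sym m (p i)) (sym m p')),
        (∏ i, Real.log (p i)) * Real.log p' =
      (∏ i, Real.log (p i)) *
        ∑ φ' : Pat m, if G φ φ' then A m N' r' φ' else 0 := by
    intro p hp
    have hpφ : (fun i => sym m (p i)) = φ := by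
      funext i
      have := (Fintype.mem_piFinset.mp hp) i
      exact (mem_filter.mp this).2
    rw [hpφ, ← Finset.mul_sum]
    congr 1
    rw [← Finset.sum_fiberwise _ (fun p' : ℕ => sym m p')]
    refine Finset.sum_congr rfl fun φ' _ => ?_
    split_ifs with hG
    · unfold A
      refine Finset.sum_congr ?_ fun _ _ => rfl
      ext q
      simp only [mem_filter]
      constructor
      · rintro ⟨⟨hq, _⟩, h⟩
        exact ⟨hq, h⟩
      · rintro ⟨hq, h⟩
        exact ⟨⟨hq, h ▸ hG⟩, h⟩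
    · refine Finset.sum_eq_zero fun q hq => ?_
      simp only [mem_filter] at hq
      exact absurd (hq.2 ▸ hq.1.2) hG
  rw [Finset.sum_congr rfl h1, ← Finset.sum_mul]
  have h2 : ∑ p ∈ Fintype.piFinset (fun i => (Pr (N i) 1).filter (fun q => sym m q = φ i)),
      ∏ i, Real.log (p i) = ∏ i, A m (N i) 1 (φ i) := by
    unfold A
    rw [Finset.prod_univ_sum]
  rw [h2, Finset.mul_sum]
  refine Finset.sum_congr rfl fun φ' _ => ?_
  split_ifs <;> simp

open Classical in
/-- number of good pairs -/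
theorem card_good (hG : StmtGood) (m s : ℕ) :
    ((univ.filter fun w : Pat m => cork m w = s).card : ℝ) * (Fintype.card (Pat m) : ℝ) ^ s ≤
      4 ^ s * ∑ φ : Fin s → Pat m, ∑ φ' : Pat m,
        if Good m ((∑ i, φ i) + φ') φ then (1 : ℝ) else 0 := by
  have h1 : ∀ φ : Fin s → Pat m, ∑ φ' : Pat m,
      (if Good m ((∑ i, φ i) + φ') φ then (1 : ℝ) else 0) =
      ∑ w : Pat m, if Good m w φ then (1 : ℝ) else 0 := fun φ =>
    Equiv.sum_comp (Equiv.addLeft (∑ i, φ i)) (fun w => if Good m w φ then (1 : ℝ) else 0)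
  rw [Finset.sum_congr rfl fun φ _ => h1 φ, Finset.sum_comm, Finset.mul_sum]
  have h2 : ∀ w : Pat m, (if cork m w = s then (Fintype.card (Pat m) : ℝ) ^ s else 0) ≤
      4 ^ s * ∑ φ : Fin s → Pat m, if Good m w φ then (1 : ℝ) else 0 := by
    intro w
    split_ifs with hw
    · subst hw
      have := hG m w
      rw [Finset.sum_boole]
      exact_mod_cast this
    · exact mul_nonneg (by positivity) (Finset.sum_nonneg fun _ _ => by split_ifs <;> norm_num)
  refine le_trans (le_of_eq ?_) (Finset.sum_le_sum fun w _ => h2 w)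
  rw [Finset.sum_ite, Finset.sum_const_zero, add_zero, Finset.sum_const, nsmul_eq_mul]

/-- (M7d) -/
theorem stmtCount (hEq : StmtEq) (hMain : StmtMain) (hGood : StmtGood) : StmtCount := by
  classical
  obtain ⟨N₀, hN₀⟩ := hMain
  refine ⟨N₀, ?_⟩
  intro m s N N' r' hm h30 hr' hr'c hN hN'0 hN'm hN'exc
  have hodd : Odd m := by
    rw [← Nat.not_even_iff_odd, even_iff_two_dvd]
    intro h2
    have := Nat.dvd_gcd h2 (show 2 ∣ 30 by norm_num)
    rw [h30] at this
    norm_num at this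
  set P : ℝ := (Fintype.card (Pat m) : ℝ) with hP
  have hPpos : 0 < P := by
    rw [hP]; exact_mod_cast Fintype.card_pos
  have hA : ∀ i (φ : Pat m), (N i : ℝ) / (40 * P) ≤ A m (N i) 1 φ := fun i φ =>
    le_A hEq hm hodd (hN i).2.1 (hN₀ (N i) (hN i).1 1 (by norm_num) (by norm_num)) (hN i).2.2 φ
  have hA' : ∀ φ : Pat m, (N' : ℝ) / (40 * P) ≤ A m N' r' φ := fun φ =>
    le_A hEq hm hodd hN'm (hN₀ N' hN'0 r' hr' hr'c) hN'exc φ
  have hgr := group m s N N' r' (fun φ φ' => Good m ((∑ i, φ i) + φ') φ)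
  refine le_trans ?_ (le_of_eq ?_) (b := ∑ φ : Fin s → Pat m, ∑ φ' : Pat m,
      if Good m ((∑ i, φ i) + φ') φ then (∏ i, A m (N i) 1 (φ i)) * A m N' r' φ' else 0)
  swap
  · rw [← hgr]
  set c : ℝ := (∏ i, (N i : ℝ) / (40 * P)) * ((N' : ℝ) / (40 * P)) with hc
  have h3 : c * ∑ φ : Fin s → Pat m, ∑ φ' : Pat m,
      (if Good m ((∑ i, φ i) + φ') φ then (1 : ℝ) else 0) ≤
      ∑ φ : Fin s → Pat m, ∑ φ' : Pat m,
      if Good m ((∑ i, φ i) + φ') φ then (∏ i, A m (N i) 1 (φ i)) * A m N' r' φ' else 0 := by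
    rw [Finset.mul_sum]
    refine Finset.sum_le_sum fun φ _ => ?_
    rw [Finset.mul_sum]
    refine Finset.sum_le_sum fun φ' _ => ?_
    split_ifs
    · rw [mul_one, hc]
      refine mul_le_mul ?_ (hA' φ') (by positivity) (Finset.prod_nonneg fun i _ => A_nonneg _ _ _ _)
      exact Finset.prod_le_prod (fun i _ => by positivity) fun i _ => hA i (φ i)
    · simp
  refine le_trans ?_ h3
  have h4 := card_good hGood m s
  rw [← hP] at h4
  have hcnn : 0 ≤ c := by positivity
  have h5 : c * (((univ.filter fun w : Pat m => cork m w = s).card : ℝ) * P ^ s / 4 ^ s) ≤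
      c * ∑ φ : Fin s → Pat m, ∑ φ' : Pat m,
        (if Good m ((∑ i, φ i) + φ') φ then (1 : ℝ) else 0) := by
    refine mul_le_mul_of_nonneg_left ?_ hcnn
    rw [div_le_iff₀ (by positivity), mul_comm _ ((4 : ℝ) ^ s)]
    convert h4 using 3
  refine le_trans (le_of_eq ?_) h5
  have hprod : (∏ i, (N i : ℝ) / (40 * P)) = (∏ i, (N i : ℝ)) / (40 * P) ^ s := by
    rw [Finset.prod_div_distrib, Finset.prod_const, Finset.card_univ, Fintype.card_fin]
  rw [hc, hprod]
  field_simp
  ring

end Vale.Agent.P017.R2.H706
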